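import Vale.Agent.P270G.Rfn
import Vale.Agent.P281Z.Sc.Bd

/-!
# P270W, row RFM: connected components in the output of the minimal model program
-/

open scoped Manifold ContDiff Topology
open Set Filter
open Vale.Agent.P272.K Vale.Agent.P285.H281.FD Vale.Agent.P281Z Vale.Agent.P285N
open Vale.Agent.P277Z (Hol)
open Vale.Agent.P277Z.Slc (IsDiv LEq Snc)
open Vale.Agent.P277Z.GH.Of (Cmp exists_cmp)
open Vale.Agent.P285S.Mm.RefH (sum_par)
open Vale.Agent.P270G.RfnH (leq_prod)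

noncomputable section

namespace Vale.Agent.P270W.R89

variable {n : ℕ} {Z : Mf n} {κ : Type} {G : κ → Set Z.X} {r : ℕ} {G' : Fin r → Set Z.X}
  {par : Fin r → κ}

theorem prod_rp [DecidableEq κ] [Fintype κ] (par : Fin r → κ) (a : Fin r → ℂ) (c : κ → ℝ) :
    ∏ l, ‖∏ j with par j = l, a j‖ ^ c l = ∏ j, ‖a j‖ ^ c (par j) := by
  rw [← Finset.prod_fiberwise Finset.univ par]
  refine Finset.prod_congr rfl fun l _ => ?_
  rw [norm_prod, ← Real.finsetProd_rpow _ _ fun _ _ => norm_nonneg _]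
  exact Finset.prod_congr rfl fun j hj => by rw [(Finset.mem_filter.1 hj).2]

theorem off_eq (h : Cmp G G' par) : off G' = off G :=
  Set.ext fun y => ⟨fun k l hl => let ⟨j, _, b⟩ := h.ex l y hl; k j b,
    fun k j hj => k _ (h.sub j hj)⟩

/-- the sections with poles only see the union with the weights -/
theorem secP_iff [Fintype κ] (h : Cmp G G' par) (hs : Snc n G') {M : Bd Z.X} {s : M.ι → Z.X → ℂ}
    (c : κ → ℝ) : SecP n n id univ M G' (fun j => c (par j)) s ↔ SecP n n id univ M G c s := by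
  classical
  have e := off_eq h
  refine ⟨fun k => ⟨fun a x h1 h2 h3 => k.hol a x h1 h2 (e ▸ h3),
    fun a b x h1 h2 h3 h4 => k.chg a b x h1 h2 h3 (e ▸ h4), fun a x h1 h2 => ?_⟩,
    fun k => ⟨fun a x h1 h2 h3 => k.hol a x h1 h2 (e ▸ h3),
    fun a b x h1 h2 h3 h4 => k.chg a b x h1 h2 h3 (e ▸ h4), fun a x h1 h2 ζ hζ => ?_⟩⟩
  · obtain ⟨ζ, hζ, -⟩ := hs x
    obtain ⟨C, hC⟩ := k.bd a x h1 h2 ζ hζ
    exact bdP_of_one (i := id) (C := C) continuousAt_id (leq_prod h hζ) (hC.mono fun y hy k1 => by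
      rw [prod_rp par (fun j => ζ j (id y)) c]
      exact hy (e ▸ k1))
  · obtain ⟨C, hC⟩ := k.bd a x h1 h2 _ (leq_prod h hζ)
    exact ⟨C, hC.mono fun y hy k1 => by
      have := hy (e ▸ k1)
      rwa [prod_rp par (fun j => ζ j (id y)) c] at this⟩

/-- **row RFM** -/
theorem rfm (d : ℕ) : P285S.Mm.ForI d fun _ _ _ A m N φ c L => ∀ R : P285S.Mm.Dt A,
    R.Ok m N φ c L → R.Gr →
    ∃ R' : P285S.Mm.Dt A, R'.Ok m N φ c L ∧ R'.Gr ∧ ∀ l, IsConnected (R'.B.G l) := by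
  classical
  intro κ ι _ A m N O σ φ c L _ R a z
  have hs := P277Z.Cls.isSnc_of a.ok.snc
  obtain ⟨r, G', par, h⟩ := exists_cmp hs
  have hs' := P277Z.Slc.snc_of_isSnc (h.snc hs)
  choose O' σ' hO' using fun j => P277Z.Slc.stDiv d R.B.Z.X (G' j) fun x =>
    let ⟨ζ, k, _⟩ := hs' x; ⟨ζ j, k j⟩
  obtain ⟨Ω, hΩ⟩ := P285S.Mm.mkpr d (Fin r) R.B.Z G' O' σ' R.B.P (fun j => R.m (par j)) R.N
    a.ok.conn a.ok.prj hs' hO' a.ok.lb a.ok.pos a.ok.even (fun j => a.ok.le _)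
    (by rw [Xc.cls_eq d _ _ R.m R.N R.B R.O R.σ a.ok a.div, sum_par h a.div hO'])
  have sp : ∀ f : R.κ' → ℕ, ∑ l, f l • cls d (R.O l) = ∑ j, f (par j) • cls d (O' j) := fun f => by
    simpa only [natCast_zsmul] using sum_par h a.div hO' fun l => f l
  obtain ⟨⟨-, H, k1, C, k2⟩, Λ, H', l1, l2, l3, l4, l5, l6⟩ := z
  refine ⟨⟨Fin r, R.B.P.ι, ⟨R.B.Z, G', R.B.P.U, R.B.P.g, Ω⟩, fun j => R.m (par j), R.N, R.π, O', σ',
    R.δ, fun j => R.Φ (par j), fun j => R.φ (par j)⟩,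
    ⟨hΩ, a.md, hO', a.pos, a.cl.trans (by rw [sp]),
      a.eff.trans (by rw [sp]), fun j => a.neg _, fun j k y hy => a.sup _ k y (h.sub j hy),
      fun y k hy => ?_, fun k j => a.bd k _⟩,
    ⟨⟨hΩ, H, ⟨k1.lbH, k1.lbL, k1.pos⟩, C, fun k i q M s b1 b2 b3 => ?_⟩, Λ, H', l1, l2, l3, l4, l5,
      fun k i M s b1 b2 ⟨q, b3⟩ => ?_⟩, h.conn⟩
  · obtain ⟨l, l1, l2⟩ := a.pre y k hy
    obtain ⟨j, rfl, hj⟩ := h.ex l y l1
    exact ⟨j, hj, l2.imp_right fun k => ⟨(image_mono (h.sub j)).trans k.1, k.2⟩⟩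
  · exact (secP_iff h hs' _).2 (k2 k i q M s b1 b2 ((secP_iff h hs' _).1 b3))
  · exact (secP_iff h hs' fun _ => 0).2 (l6 k i M s b1 b2
      ⟨q, (secP_iff h hs' fun l => if -(R.Φ l : ℤ) < 0 then (q : ℝ) else 0).1 b3⟩)

end Vale.Agent.P270W.R89
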