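import Vale.Agent.P270G.Defs5
import Vale.Agent.P270H.Defs
import Vale.Agent.P285M.As.Core
import Vale.Agent.P285M.Sg.Defs
import Vale.Agent.P285S.At.Defs

/-!
# P270W: effective pairs in dimension five (rows)
-/

open Set Function
open Vale.Agent.P272.K Vale.Agent.P285.H281.FD Vale.Agent.P281Z Vale.Agent.P280Z
open Vale.Agent.P277.HD (pull)
open Vale.Agent.P285N (Pr)
open Vale.Agent.P285N.Tp (FLC)
open Vale.Agent.P285W.J (Tr Mn Bf Ef)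
open Vale.Agent.P285W.Bs (Cp KU)
open Vale.Agent.P285S (Pse)
open Vale.Agent.P285S.B2 (Nu Ba SC SN)
open Vale.Agent.P270G (ForP ForQ Cw Nl Nz Dn zz)
open Vale.Agent.P270F.Mg (Ct Frm)
open Vale.Agent.P270H (G0)
open Vale.Agent.P285M.Sg (Xg)

namespace Vale.Agent.P270W

/-- ROW RFM: connected components in the output -/
def RFM : Prop := ∀ d, P285S.Mm.ForI d fun _ _ _ A m N φ c L => ∀ R : P285S.Mm.Dt A,
  R.Ok m N φ c L → R.Gr →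
  ∃ R' : P285S.Mm.Dt A, R'.Ok m N φ c L ∧ R'.Gr ∧ ∀ l, IsConnected (R'.B.G l)

/-- ROW MM1: the null components are contracted -/
def MM1 (d : ℕ) : Prop := ForP (d + 1) fun T _ _ _ A m N => ∀ z : T.H A.Z, Cw A m N →
  Mn T A.Z z → T.Dg A.Z d z → (∀ k, m k < 0 → Nl T A k z) →
  (∃ C : Ct A.Z, C.Ok (Nz T A z)) ∨ Frm T A.Z z

/-- ROW DNQ: the Calabi-Yau pair above a divisor -/
def DNQ : Prop := ∀ d, ForQ (d + 1) fun T V Q _ _ => ∀ (ν : ℕ) (D : Bd V.X) (s : D.ι → V.X → ℂ),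
  ν ≤ d → Nu T V (T.c1 V Q.L) ν → IsLB (d + 1) D → IsSec (d + 1) D s → (∃ x, NZ D s x) →
  ∃ (κ ι : Type) (_ : Fintype κ) (A : Pr (d + 1) κ ι) (m : κ → ℤ) (N : ℕ) (π : A.Z.X → V.X)
    (S : Set V.X) (Λ : Bd A.Z.X) (hπ : Modif (d + 1) π S) (y : T.H V),
    Dn T A m N (pull π Q.L) Λ ν ∧ (∀ x ∈ off A.G, π x ∉ S ∧ NZ D s (π x)) ∧ Mn T V y ∧
    zz T A.Z (pull π Q.L) Λ ν = T.pull hπ.hol (T.c1 V Q.L ^ ν * y)

/-- ROW SGG: no null family, for polarised pairs -/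
def SGG : Prop := ∀ T : CT, T.OK → FLC T → ∀ (n b : ℕ) (Y X : Mf n) (B : Mf b) (l : T.H Y)
  (κ ι : Type) [Fintype κ] (A : Pr n κ ι) (m : κ → ℤ) (N : ℕ) (L M : Bd A.Z.X) (u : A.Z.X → Y.X)
  (S : Set Y.X) (hu : Modif n u S) (j : ℝ) (π : X.X → Y.X) (hπ : HolM n n π) (g : X.X → B.X)
  (hg : HolM n b g) (H : Bd B.X) (z : T.H X), Cp Y → G0 A m N L M → Pse A.Z (cls n A.P) → 0 < j →
  T.c1 A.Z L = j • T.pull hu.hol l → n ≤ b + 4 → Neg n (Tr T Y l) → Xg T hπ hg l H z →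
  (∀ k, m k < 0 → ∀ (d : ℕ) (U : Mf d) (p : U.X → X.X) (hp : HolM d n p), n = d + 1 → Cp U →
    range p ⊆ π ⁻¹' (u '' A.G k) → (∃ x, Imm d n (fun x => π (p x)) x) →
    T.int U (T.pull hp z) = 0) → False

/-- ROW FRM: no free null class -/
def FRM : Prop := ∀ d ≤ 4, ForP (d + 1) fun T _ _ _ A m N => FLC T → ∀ (L Λ : Bd A.Z.X) (ν : ℕ),
  ν ≤ d → Dn T A m N L Λ ν → Neg (d + 1) (Tr T A.Z (T.c1 A.Z L)) → ¬ Frm T A.Z (zz T A.Z L Λ ν)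

/-- on the model `Z` the class `g` is free and big, and it contracts the null hypersurfaces over
`W` -/
structure Kl (T : CT) {d : ℕ} {V Z : Mf (d + 1)} {μ : Z.X → V.X} (hμ : HolM (d + 1) (d + 1) μ)
    (l : T.H V) (ν : ℕ) (g : T.H Z) (W : Set V.X) : Prop where
  prj : Z.Prj
  bf : Bf T Z g
  big : ∃ a, T.Kc Z a ∧ Ef T Z (g - a)
  kill : ∀ (U : Mf d) (p : U.X → Z.X) (hp : HolM d (d + 1) p), Cp U → (∀ x, μ (p x) ∈ W) →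
    (∀ y, Mn T V y → T.int U (T.pull hp (T.pull hμ (l ^ ν * y))) = 0) →
    T.int U (T.pull hp (g ^ d)) = 0

/-- ROW CTQ: the contraction -/
def CTQ (d : ℕ) : Prop := ForQ (d + 1) fun T V Q _ _ => FLC T → ∀ (ν : ℕ) (D : Bd V.X)
  (s : D.ι → V.X → ℂ), ν ≤ d → Nu T V (T.c1 V Q.L) ν → Neg (d + 1) (Tr T V (T.c1 V Q.L)) →
  IsLB (d + 1) D → IsSec (d + 1) D s → (∃ x, NZ D s x) →
  ∃ (Z : Mf (d + 1)) (μ : Z.X → V.X) (S : Set V.X) (hμ : Modif (d + 1) μ S) (g : T.H Z),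
    Kl T hμ.hol (T.c1 V Q.L) ν g (S ∪ {x | ¬ NZ D s x})

/-- ROW SNQ: no relation between null divisors -/
def SNQ (d : ℕ) : Prop := ForQ (d + 1) fun T V Q _ _ => FLC T → ∀ ν : ℕ, 0 < ν → ν ≤ d →
  Nu T V (T.c1 V Q.L) ν → Neg (d + 1) (Tr T V (T.c1 V Q.L)) → ¬ SN T V (T.c1 V Q.L) ν

/-- ROW SGQ: no families of small slope -/
def SGQ : Prop := ∀ n ≤ 5, ForQ n fun T V Q _ _ => FLC T → (∀ x, NZ Q.E Q.s x) →
  ∀ (r ν : ℕ) (H : Bd V.X), 0 < r → Ba V (Q.L.pow r) H → Neg n (Tr T V (T.c1 V Q.L)) →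
  ¬ P285S.Ob.CA T V (T.c1 V (Q.L.pow r)) (T.c1 V H) ν

/-- ROW KXQ: the domination of the canonical bundle -/
def KXQ : Prop := ∀ n, ForQ n fun _ V Q _ _ => (∀ x, NZ Q.E Q.s x) →
  ∃ (r : ℕ) (H : Bd V.X), 0 < r ∧ Ba V (Q.L.pow r) H ∧ KU V (Q.L.pow r) H

/-- ROW KEZ: the dichotomy, with a free class on a model -/
def KEZ : Prop := ∀ T : CT, T.OK → FLC T → ∀ (d : ℕ) (Y Z : Mf (d + 1)) (μ : Z.X → Y.X)
  (S : Set Y.X) (hμ : Modif (d + 1) μ S) (L A : Bd Y.X) (ν : ℕ) (g : T.H Z), Ba Y L A → KU Y L A →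
  Neg (d + 1) (Tr T Y (T.c1 Y L)) → Nu T Y (T.c1 Y L) ν → 0 < ν → ν < d + 1 →
  Kl T hμ.hol (T.c1 Y L) ν g univ →
  P285S.Ob.CA T Y (T.c1 Y L) (T.c1 Y A) ν ∨ SC T Y (T.c1 Y L) ν

/-- **NOQ**: the intermediate case does not occur -/
def NOQ (d : ℕ) : Prop := ForQ (d + 1) fun T V Q _ _ => FLC T → (∀ x, NZ Q.E Q.s x) →
  ∀ ν : ℕ, 0 < ν → ν ≤ d → Nu T V (T.c1 V Q.L) ν → ¬ Neg (d + 1) (Tr T V (T.c1 V Q.L))

end Vale.Agent.P270W
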