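import Vale.Agent.P270G.Rfn

/-!
# P270W, row RFM: connected components in the output of the minimal model program
-/

open scoped Manifold ContDiff Topology
open Set Filter
open Vale.Agent.P272.K Vale.Agent.P285.H281.FD Vale.Agent.P281Z Vale.Agent.P285N
open Vale.Agent.P277Z.Slc (IsDiv LEq Snc)
open Vale.Agent.P277Z.GH.Of (Cmp exists_cmp)
open Vale.Agent.P285S.Mm.RefH (sum_par)
open Vale.Agent.P270G.RfnH (leq_prod)

noncomputable section

namespace Vale.Agent.P270W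

namespace R77

variable {n : ℕ} {Z : Mf n} {κ : Type} [Fintype κ] {G : κ → Set Z.X} {r : ℕ}
  {G' : Fin r → Set Z.X} {par : Fin r → κ}

theorem secP (h : Cmp G G' par) (hs : Snc n G') {M : Bd Z.X} {s : M.ι → Z.X → ℂ} (c : κ → ℝ) :
    SecP n n id univ M G' (fun j => c (par j)) s ↔ SecP n n id univ M G c s := by
  classical
  have e : off G' = off G := Set.ext fun x =>
    ⟨fun k l hl => let ⟨j, _, b⟩ := h.ex l x hl; k j b, fun k j hj => k _ (h.sub j hj)⟩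
  have w : ∀ a : Fin r → ℂ, ∏ l, ‖∏ j with par j = l, a j‖ ^ c l = ∏ j, ‖a j‖ ^ c (par j) :=
    fun a => by
      rw [← Finset.prod_fiberwise Finset.univ par]
      refine Finset.prod_congr rfl fun l _ => ?_
      rw [norm_prod, ← Real.finsetProd_rpow _ _ fun _ _ => norm_nonneg _]
      exact Finset.prod_congr rfl fun j hj => by rw [(Finset.mem_filter.1 hj).2]
  have k : ∀ (u : Z.X → ℂ) x, BdP n id G' (fun j => c (par j)) u x ↔ BdP n id G c u x := by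
    intro u x
    obtain ⟨ζ, hζ, -⟩ := hs x
    refine ⟨fun k => (k ζ hζ).elim fun C k => bdP_of_one continuousAt_id (leq_prod h hζ) (C := C)
      (k.mono fun y k => ?_), fun k => (k _ (leq_prod h hζ)).elim fun C k =>
        bdP_of_one continuousAt_id hζ (C := C) (k.mono fun y k => ?_)⟩
    · rwa [w fun j => ζ j (id y), ← e]
    · rwa [w fun j => ζ j (id y), ← e] at k
  exact ⟨fun a => ⟨e ▸ a.hol, e ▸ a.chg, fun b x p q => (k _ x).1 (a.bd b x p q)⟩,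
    fun a => ⟨e ▸ a.hol, e ▸ a.chg, fun b x p q => (k _ x).2 (a.bd b x p q)⟩⟩

end R77

open R77 in
/-- **row RFM** -/
theorem rfm77 : ∀ d, P285S.Mm.ForI d fun _ _ _ A m N φ c L => ∀ R : P285S.Mm.Dt A,
    R.Ok m N φ c L → R.Gr →
    ∃ R' : P285S.Mm.Dt A, R'.Ok m N φ c L ∧ R'.Gr ∧ ∀ l, IsConnected (R'.B.G l) := by
  classical
  intro d κ ι _ A m N O σ φ c L _ R a ⟨⟨_, H, nf, C, fp⟩, Λ, H', l1, l2, l3, l4, l5, rig⟩
  have hs := P277Z.Cls.isSnc_of a.ok.snc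
  obtain ⟨r, G', par, h⟩ := exists_cmp hs
  have hs' := P277Z.Slc.snc_of_isSnc (h.snc hs)
  choose O' σ' hO' using fun j => P277Z.Slc.stDiv d R.B.Z.X (G' j) fun x =>
    let ⟨ζ, k, _⟩ := hs' x; ⟨ζ j, k j⟩
  obtain ⟨Ω, hΩ⟩ := P285S.Mm.mkpr d (Fin r) R.B.Z G' O' σ' R.B.P (fun j => R.m (par j)) R.N
    a.ok.conn a.ok.prj hs' hO' a.ok.lb a.ok.pos a.ok.even (fun j => a.ok.le _)
    (by rw [Xc.cls_eq d _ _ R.m R.N R.B R.O R.σ a.ok a.div, sum_par h a.div hO'])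
  have sp : ∀ f : R.κ' → ℕ, ∑ l, f l • cls d (R.O l) = ∑ j, f (par j) • cls d (O' j) := fun f => by
    simpa only [natCast_zsmul] using sum_par h a.div hO' fun l => f l
  refine ⟨⟨Fin r, R.B.P.ι, ⟨R.B.Z, G', R.B.P.U, R.B.P.g, Ω⟩, fun j => R.m (par j), R.N, R.π, O', σ',
    R.δ, fun j => R.Φ (par j), fun j => R.φ (par j)⟩,
    ⟨hΩ, a.md, hO', a.pos, a.cl.trans (by rw [sp]), a.eff.trans (by rw [sp]), fun j => a.neg _,
      fun j k y hy => a.sup _ k y (h.sub j hy), fun y k hy => ?_, fun k j => a.bd k _⟩,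
    ⟨⟨hΩ, H, ⟨nf.lbH, nf.lbL, nf.pos⟩, C, fun k i q M s m1 m2 m3 =>
      (secP h hs' _).2 (fp k i q M s m1 m2 ((secP h hs' _).1 m3))⟩, Λ, H', l1, l2, l3, l4, l5,
      fun k i M s m1 m2 ⟨q, m3⟩ => (secP h hs' fun _ => 0).2
        (rig k i M s m1 m2 ⟨q, (secP h hs' _).1 m3⟩)⟩, h.conn⟩
  obtain ⟨l, l1, l2⟩ := a.pre y k hy
  obtain ⟨j, rfl, hj⟩ := h.ex l y l1
  exact ⟨j, hj, l2.imp_right fun k => ⟨(image_mono (h.sub j)).trans k.1, k.2⟩⟩

end Vale.Agent.P270W
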